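import Crest.Agent.N111.Grp.ICC

/-!
# Row 111, NOINV: no `Γ`-invariant state on `P²`, `P²*`, or any space of rays of psd matrices.

The space `X` carries a map `q` to nonzero positive semidefinite `3 × 3` matrices
(`q v = v vᵀ` for the projective plane) on which maps `α : X → X` act projectively as
`P ↦ g P gᵀ`.  Twelve elementary matrices give a quantitative paradoxical decomposition:
`∑ i, wt i = 1` and `∑ i k, wt i ∘ α i k ≤ 39 / 10 < 4`.
-/

set_option autoImplicit false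

namespace Crest.Agent.N111

open Matrix

namespace NoInv

lemma sum_four (t : ℝ) : ∑ k : Fin 4, 1 / (1 + (6 * (k : ℕ) + t) ^ 2) ≤ (13 : ℝ) / 10 := by
  have h1 : ∀ s : ℝ, 1 / (1 + s ^ 2) ≤ 1 := fun s =>
    (div_le_one (by positivity)).2 (by nlinarith [sq_nonneg s])
  have h2 : ∀ s : ℝ, 3 ≤ |s| → 1 / (1 + s ^ 2) ≤ 1 / 10 := fun s hs =>
    one_div_le_one_div_of_le (by norm_num) (by nlinarith [sq_abs s, abs_nonneg s])
  have h3 : ∀ s : ℝ, 3 ≤ s → 1 / (1 + s ^ 2) ≤ 1 / 10 := fun s hs => h2 s (hs.trans (le_abs_self s))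
  have h4 : ∀ s : ℝ, s ≤ -3 → 1 / (1 + s ^ 2) ≤ 1 / 10 := fun s hs =>
    h2 s (le_trans (by linarith) (neg_le_abs s))
  simp only [Fin.sum_univ_four, Fin.val_zero, Fin.val_one, Fin.val_two]
  rw [show ((3 : Fin 4) : ℕ) = 3 from rfl]
  push_cast
  rcases le_total (-3) t with a | a
  · linarith [h1 (6 * 0 + t), h3 (6 * 1 + t) (by linarith), h3 (6 * 2 + t) (by linarith),
      h3 (6 * 3 + t) (by linarith)]
  rcases le_total (-9) t with b | b
  · linarith [h4 (6 * 0 + t) (by linarith), h1 (6 * 1 + t), h3 (6 * 2 + t) (by linarith),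
      h3 (6 * 3 + t) (by linarith)]
  rcases le_total (-15) t with c | c
  · linarith [h4 (6 * 0 + t) (by linarith), h4 (6 * 1 + t) (by linarith), h1 (6 * 2 + t),
      h3 (6 * 3 + t) (by linarith)]
  · linarith [h4 (6 * 0 + t) (by linarith), h4 (6 * 1 + t) (by linarith),
      h4 (6 * 2 + t) (by linarith), h1 (6 * 3 + t)]

/-- `g P gᵀ` -/
def cj (g : G) (P : Matrix (Fin 3) (Fin 3) ℝ) : Matrix (Fin 3) (Fin 3) ℝ :=
  (g : Matrix (Fin 3) (Fin 3) ℝ) * P * (g : Matrix (Fin 3) (Fin 3) ℝ)ᵀ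

lemma cj_psd (g : G) {P : Matrix (Fin 3) (Fin 3) ℝ} (hP : P.PosSemidef) : (cj g P).PosSemidef := by
  simpa [cj] using hP.mul_mul_conjTranspose_same (g : Matrix (Fin 3) (Fin 3) ℝ)

lemma cj_tv_diag {i j : Fin 3} (hji : j ≠ i) (b : ℝ) (P : Matrix (Fin 3) (Fin 3) ℝ) (k : Fin 3) :
    cj (tv hji b) P k k
      = P k k + if k = j then b * (P i j + P j i) + b ^ 2 * P i i else 0 := by
  simp only [cj, Matrix.mul_apply, Matrix.transpose_apply, Fin.sum_univ_three, tv_apply]
  fin_cases i <;> fin_cases j <;> simp at hji <;> fin_cases k <;> simp <;> ring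

lemma cj_tv_le {i j : Fin 3} (hji : j ≠ i) (b : ℝ) {P : Matrix (Fin 3) (Fin 3) ℝ}
    (hP : P.PosSemidef) :
    cj (tv hji b) P i i / trace (cj (tv hji b) P) ≤ 1 / (1 + (b + P i j / P i i) ^ 2) := by
  have hs : P j i = P i j := by simpa using hP.1.apply i j
  have hii : cj (tv hji b) P i i = P i i := by rw [cj_tv_diag]; simp [hji.symm]
  rcases (hP.diag_nonneg (i := i)).eq_or_lt with h0 | h0
  · rw [hii, ← h0]; simp; positivity
  set t := P i j / P i i with ht
  have e : P i j = t * P i i := by rw [ht]; field_simp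
  have h1 := (cj_psd (tv hji (-t)) hP).diag_nonneg (i := j)
  rw [cj_tv_diag, if_pos rfl, hs, e] at h1
  have h2 : cj (tv hji b) P i i + cj (tv hji b) P j j ≤ trace (cj (tv hji b) P) := by
    rw [← Finset.sum_pair (f := fun k => cj (tv hji b) P k k) hji.symm]
    exact Finset.sum_le_sum_of_subset_of_nonneg (Finset.subset_univ _)
      fun k _ _ => (cj_psd _ hP).diag_nonneg
  rw [hii, cj_tv_diag, if_pos rfl, hs, e] at h2
  have h3 : P i i * (1 + (b + t) ^ 2) ≤ trace (cj (tv hji b) P) := by nlinarith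
  rw [hii, div_le_div_iff₀ (lt_of_lt_of_le (by positivity) h3) (by positivity)]
  linarith

lemma succ_ne (i : Fin 3) : i + 1 ≠ i := by fin_cases i <;> decide

end NoInv

open NoInv

/-- the weight `P i i / tr P` -/
noncomputable def wt (i : Fin 3) (P : Matrix (Fin 3) (Fin 3) ℝ) : ℝ := P i i / trace P


lemma sum_wt {P : Matrix (Fin 3) (Fin 3) ℝ} (h : trace P ≠ 0) : ∑ i, wt i P = 1 := by
  simp only [wt, ← Finset.sum_div]
  exact div_self h

/-- the pointwise paradoxical inequality -/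
theorem sum_wt_cj_le {P : Matrix (Fin 3) (Fin 3) ℝ} (hP : P.PosSemidef) (i : Fin 3) :
    ∑ k : Fin 4, wt i (cj (tv (succ_ne i) (6 * (k : ℕ))) P) ≤ 13 / 10 :=
  (Finset.sum_le_sum fun k _ => cj_tv_le (succ_ne i) _ hP).trans (sum_four _)

section functional

variable {X : Type*} [TopologicalSpace X] (q : X → Matrix (Fin 3) (Fin 3) ℝ)








end functional

/-! ### rank one matrices -/

lemma cj_vecMulVec (g : G) (v : Fin 3 → ℝ) :
    cj g (vecMulVec v v) = vecMulVec (g.1 *ᵥ v) (g.1 *ᵥ v) := by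
  ext i j
  simp only [cj, Matrix.mul_apply, Matrix.transpose_apply, vecMulVec_apply, mulVec, dotProduct,
    Fin.sum_univ_three]
  ring

lemma psd_vecMulVec (v : Fin 3 → ℝ) : (vecMulVec v v).PosSemidef := by
  simpa using Matrix.posSemidef_vecMulVec_self_star v

lemma trace_vecMulVec_ne {v : Fin 3 → ℝ} (hv : v ≠ 0) : trace (vecMulVec v v) ≠ 0 := by
  rw [trace_vecMulVec]
  exact fun h => hv (dotProduct_self_eq_zero.1 h)


end Crest.Agent.N111
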