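import Crest.Agent.N111.Lat.G
import Crest.Prelude.Def_GroupVonNeumann

/-!
# Row 111, discrete group theory I: `SL(3, ℤ)` is ICC; general facts on ICC groups.
-/

set_option autoImplicit false

namespace Crest.Agent.N111

open Crest.OperatorAlgebra Matrix
open scoped Pointwise

/-- the integral elementary matrix `1 + b E_{ij}` -/
abbrev tz {i j : Fin 3} (hij : i ≠ j) (b : ℤ) : Γ := Matrix.SpecialLinearGroup.transvection hij b

lemma tz_apply {i j : Fin 3} (hij : i ≠ j) (b : ℤ) (k l : Fin 3) :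
    tz hij b k l = (if k = l then 1 else 0) + (if i = k ∧ j = l then b else 0) := by
  have : tz hij b k l = ((1 : Matrix (Fin 3) (Fin 3) ℤ) + single i j b) k l := rfl
  rw [this, Matrix.add_apply, Matrix.one_apply, Matrix.single_apply]

@[simp] lemma ι_tz {i j : Fin 3} (hij : i ≠ j) (b : ℤ) : ι (tz hij b) = tv hij (b : ℝ) := by
  ext k l
  rw [ι_apply, tz_apply, tv_apply]
  split_ifs <;> simp

lemma tz_add {i j : Fin 3} (hij : i ≠ j) (a b : ℤ) : tz hij (a + b) = tz hij a * tz hij b :=
  Matrix.SpecialLinearGroup.transvection_add hij a b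

@[simp] lemma tz_zero {i j : Fin 3} (hij : i ≠ j) : tz hij 0 = 1 :=
  Matrix.SpecialLinearGroup.transvection_coeff_zero hij


lemma tz_pow {i j : Fin 3} (hij : i ≠ j) (b : ℤ) (n : ℕ) : tz hij b ^ n = tz hij (n * b) := by
  induction n with
  | zero => simp
  | succ n ih => rw [pow_succ, ih, ← tz_add]; congr 1; push_cast; ring

lemma tz_injective {i j : Fin 3} (hij : i ≠ j) : Function.Injective (tz hij) := by
  intro a b h
  have := congrArg (fun g : Γ => g i j) h
  simpa [tz_apply, hij] using this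

/-- an element of `G` commuting with a nontrivial element of each root group is trivial -/
theorem eq_one_of_comm_tv (g : G)
    (h : ∀ (i j : Fin 3) (hij : i ≠ j), ∃ b ≠ 0, g * tv hij b = tv hij b * g) : g = 1 := by
  have off : ∀ k i : Fin 3, k ≠ i → g k i = 0 := by
    intro k i hki
    obtain ⟨j, hij⟩ := exists_ne i
    obtain ⟨b, hb, e⟩ := h i j hij.symm
    have := congrArg (fun x : G => x k j) e
    simp only [mul_tv_apply, tv_mul_apply, if_true, hki, if_false, add_zero] at this
    simpa [hb] using this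
  have dia : ∀ i j : Fin 3, i ≠ j → g i i = g j j := by
    intro i j hij
    obtain ⟨b, hb, e⟩ := h i j hij
    have := congrArg (fun x : G => x i j) e
    simp only [mul_tv_apply, tv_mul_apply, if_true] at this
    simpa [hb] using this
  have hd := det_entry g
  rw [off 1 2 (by decide), off 0 1 (by decide), off 0 2 (by decide), ← dia 0 1 (by decide),
    ← dia 0 2 (by decide)] at hd
  have h1 : g 0 0 = 1 := by
    have h3 : (g 0 0) ^ 3 = 1 ^ 3 := by linarith [hd]
    exact (Odd.strictMono_pow (by decide : Odd 3)).injective h3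
  ext i j
  by_cases hij : i = j
  · subst hij
    have : g i i = 1 := by
      by_cases hi : i = 0
      · rw [hi, h1]
      · rw [dia i 0 hi, h1]
    rw [this]; exact (Matrix.one_apply_eq i).symm
  · rw [off i j hij]; exact (Matrix.one_apply_ne hij).symm

/-- if the conjugates of `g` by the powers of `t` are finite in number, a positive power of `t`
commutes with `g` -/
theorem exists_pow_comm {K : Type*} [Group K] {g t : K}
    (h : Set.Finite {x | ∃ n : ℕ, x = t ^ n * g * (t ^ n)⁻¹}) :
    ∃ n : ℕ, n ≠ 0 ∧ g * t ^ n = t ^ n * g := by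
  have : ¬ Function.Injective fun n : ℕ => t ^ n * g * (t ^ n)⁻¹ := fun hi =>
    (Set.infinite_range_of_injective hi) (h.subset (by rintro _ ⟨n, rfl⟩; exact ⟨n, rfl⟩))
  obtain ⟨a, b, hab, hne⟩ : ∃ a b : ℕ, t ^ a * g * (t ^ a)⁻¹ = t ^ b * g * (t ^ b)⁻¹ ∧ a < b := by
    rw [Function.not_injective_iff] at this
    obtain ⟨a, b, hab, hne⟩ := this
    rcases lt_or_gt_of_ne hne with h1 | h1
    · exact ⟨a, b, hab, h1⟩
    · exact ⟨b, a, hab.symm, h1⟩
  obtain ⟨n, rfl⟩ := Nat.exists_eq_add_of_lt hne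
  refine ⟨n + 1, n.succ_ne_zero, ?_⟩
  rw [add_assoc, pow_add] at hab
  have : g = t ^ (n + 1) * g * (t ^ (n + 1))⁻¹ := by
    calc g = (t ^ a)⁻¹ * (t ^ a * g * (t ^ a)⁻¹) * t ^ a := by group
      _ = _ := by rw [hab]; group
  calc g * t ^ (n + 1) = t ^ (n + 1) * g * (t ^ (n + 1))⁻¹ * t ^ (n + 1) := by rw [← this]
    _ = _ := by group

/-- `SL(3, ℤ)` is ICC -/
theorem icc_Γ : IsICC Γ := by
  intro g hg hfin
  apply hg
  apply ι_injective
  rw [map_one]
  refine eq_one_of_comm_tv _ fun i j hij => ?_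
  obtain ⟨n, hn, e⟩ := exists_pow_comm (g := g) (t := tz hij 1)
    (hfin.subset (by rintro _ ⟨n, rfl⟩; exact ⟨_, rfl⟩))
  refine ⟨(n : ℝ), by exact_mod_cast hn, ?_⟩
  have := congrArg ι e
  simpa [tz_pow] using this

instance : Infinite Γ := Infinite.of_injective _ (tz_injective (by decide : (0 : Fin 3) ≠ 1))

section general

variable {K : Type*} [Group K]

/-- in an ICC group, classes under a finite-index subgroup are infinite -/
theorem icc_finiteIndex (hK : IsICC K) (S : Subgroup K) [S.FiniteIndex] {g : K} (hg : g ≠ 1) :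
    Set.Infinite {h : K | ∃ k ∈ S, h = k * g * k⁻¹} := by
  intro hfin
  apply hK g hg
  have : Finite (K ⧸ S) := Subgroup.finite_quotient_of_finiteIndex
  have h2 : Set.Finite (⋃ q : K ⧸ S, (fun x => q.out * x * q.out⁻¹) ''
      {h : K | ∃ k ∈ S, h = k * g * k⁻¹}) := Set.finite_iUnion fun q => hfin.image _
  refine h2.subset ?_
  rintro _ ⟨k, rfl⟩
  obtain ⟨s, hs⟩ := QuotientGroup.mk_out_eq_mul S k
  refine Set.mem_iUnion.2 ⟨(k : K ⧸ S), (s : K)⁻¹ * g * (s : K), ⟨(s : K)⁻¹, S.inv_mem s.2, by simp⟩, ?_⟩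
  simp only [hs]; group


/-- a finite subset normalised by a finite-index subgroup contains only `1` -/
theorem icc_eq_one_of_finite (hK : IsICC K) (S : Subgroup K) [S.FiniteIndex] {A : Set K}
    (hA : A.Finite) (hS : ∀ k ∈ S, ∀ a ∈ A, k * a * k⁻¹ ∈ A) {g : K} (hg : g ∈ A) : g = 1 := by
  by_contra h
  refine icc_finiteIndex hK S h (hA.subset ?_)
  rintro _ ⟨k, hk, rfl⟩
  exact hS k hk g hg

/-- a square-summable function invariant under conjugation by a finite-index subgroup is supported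
at `1` -/
theorem icc_ell2_eq_zero (hK : IsICC K) (S : Subgroup K) [S.FiniteIndex] {E : Type*}
    [NormedAddCommGroup E] (f : lp (fun _ : K => E) 2)
    (hf : ∀ k ∈ S, ∀ g, ‖f (k * g * k⁻¹)‖ = ‖f g‖) {g : K} (hg : g ≠ 1) : f g = 0 := by
  by_contra h
  have hpos : 0 < ‖f g‖ ^ (2 : ENNReal).toReal := Real.rpow_pos_of_pos (norm_pos_iff.2 h) _
  have hs := (lp.memℓp f).summable (by norm_num)
  have ht := hs.tendsto_cofinite_zero.eventually (gt_mem_nhds hpos)
  rw [Filter.eventually_cofinite] at ht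
  refine icc_finiteIndex hK S hg (ht.subset ?_)
  rintro _ ⟨k, hk, rfl⟩
  simp [hf k hk g]



end general

end Crest.Agent.N111
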